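import Vale.Agent.P214.ODE.Pack
import Vale.Agent.P214.FV.Second
import Mathlib.Analysis.SpecialFunctions.SmoothTransition

/-!
# P214, block TH: mass fraction of a height window and the energy in the window

`win`: smooth window profile, `1` on `s ≤ 1/4`, `0` on `s ≥ 1`.
`winF T c ρ y = win (|q y - c|² / ρ²)`.
`winE t = ∫_{|x| < t, |q y - c| < ρ} tilt`: the tilt energy in the window.

* `window_deriv`  : `|t (t^{-m} ∫ k winF)'| ≤ C (1/ρ² + 1/t²) t^{2-m} winE t`
* `window_change` : integrated form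
* `window_energy` : if the mass fraction of the window drops from `a` to `b < a` between the scales
  `t₁` and `t₂` then at some scale in between `t^{2-m} winE t ≥ (a-b) / (C (1/ρ²+1/t₁²) log (t₂/t₁))`
* `window_lower`, `window_upper` : the two mass fractions from lower density and from the height.
-/

open Set Filter Topology MeasureTheory Metric
open scoped RealInnerProductSpace

set_option linter.all false

namespace Vale.Agent.P214.TH

open Vale.Agent.P214.FV Vale.Agent.P214.ODE

/-- smooth window profile -/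
noncomputable def win (s : ℝ) : ℝ := Real.smoothTransition ((4 / 3) * (1 - s))

lemma win_nonneg (s : ℝ) : 0 ≤ win s := Real.smoothTransition.nonneg _

lemma win_le_one (s : ℝ) : win s ≤ 1 := Real.smoothTransition.le_one _

lemma win_one {s : ℝ} (hs : s ≤ 1 / 4) : win s = 1 := by
  unfold win
  exact Real.smoothTransition.one_of_one_le (by linarith)

lemma win_zero {s : ℝ} (hs : 1 ≤ s) : win s = 0 := by
  unfold win
  exact Real.smoothTransition.zero_of_nonpos (by linarith)

lemma contDiff_win {n : ℕ∞} : ContDiff ℝ n win := by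
  unfold win
  exact Real.smoothTransition.contDiff.comp (contDiff_const.mul (contDiff_const.sub contDiff_id))

lemma contDiff_win_two : ContDiff ℝ 2 win := by
  have := contDiff_win (n := 2)
  exact_mod_cast this

lemma contDiff_dwin : ContDiff ℝ 1 (deriv win) := (contDiff_succ_iff_deriv.1 contDiff_win_two).2.2

lemma profile_win : Profile win (deriv win) where
  der s := (contDiff_win_two.differentiable (by norm_num) s).hasDerivAt
  cont := contDiff_dwin.continuous
  zero s hs := win_zero hs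

lemma profile_dwin : Profile (deriv win) (deriv (deriv win)) where
  der s := (contDiff_dwin.differentiable (by norm_num) s).hasDerivAt
  cont := (contDiff_one_iff_deriv.1 contDiff_dwin).2
  zero s hs := profile_win.zero' hs

lemma exists_winC : ∃ C, 0 ≤ C ∧ ∀ s, 0 ≤ s → |deriv win s| ≤ C ∧ |deriv (deriv win) s| ≤ C :=
  profile_dwin.exists_bound

/-- bound of the first two derivatives of the window profile -/
noncomputable def winC : ℝ := exists_winC.choose

lemma winC_nonneg : 0 ≤ winC := exists_winC.choose_spec.1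

lemma abs_deriv_win_le {s : ℝ} (hs : 0 ≤ s) : |deriv win s| ≤ winC :=
  (exists_winC.choose_spec.2 s hs).1

lemma abs_deriv2_win_le {s : ℝ} (hs : 0 ≤ s) : |deriv (deriv win) s| ≤ winC :=
  (exists_winC.choose_spec.2 s hs).2

variable {E : Type*} [NormedAddCommGroup E] [InnerProductSpace ℝ E] [FiniteDimensional ℝ E]

/-- the window function of the height -/
noncomputable def winF (T : Submodule ℝ E) (c : E) (ρ : ℝ) : E → ℝ :=
  vrad T c (fun s => win (s / ρ ^ 2))

lemma winF_apply (T : Submodule ℝ E) (c : E) (ρ : ℝ) (y : E) :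
    winF T c ρ y = win (‖hgt T c y‖ ^ 2 / ρ ^ 2) := rfl

lemma winF_nonneg (T : Submodule ℝ E) (c : E) (ρ : ℝ) (y : E) : 0 ≤ winF T c ρ y := win_nonneg _

lemma winF_le_one (T : Submodule ℝ E) (c : E) (ρ : ℝ) (y : E) : winF T c ρ y ≤ 1 := win_le_one _

lemma winF_zero {T : Submodule ℝ E} {c : E} {ρ : ℝ} (hρ : 0 < ρ) {y : E} (hy : ρ ≤ ‖hgt T c y‖) :
    winF T c ρ y = 0 := by
  refine win_zero ?_
  rw [one_le_div (by positivity)]
  gcongr

lemma winF_one {T : Submodule ℝ E} {c : E} {ρ : ℝ} (hρ : 0 < ρ) {y : E}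
    (hy : ‖hgt T c y‖ ≤ ρ / 2) : winF T c ρ y = 1 := by
  refine win_one ?_
  rw [div_le_iff₀ (by positivity)]
  calc ‖hgt T c y‖ ^ 2 ≤ (ρ / 2) ^ 2 := by gcongr
    _ = 1 / 4 * ρ ^ 2 := by ring

lemma contDiff_winF (T : Submodule ℝ E) (c : E) (ρ : ℝ) : ContDiff ℝ 2 (winF T c ρ) :=
  contDiff_vrad T c (contDiff_win_two.comp (contDiff_id.div_const _))

lemma deriv_win_scaled (ρ s : ℝ) :
    deriv (fun s => win (s / ρ ^ 2)) s = deriv win (s / ρ ^ 2) / ρ ^ 2 := by
  have h1 : HasDerivAt (fun s : ℝ => s / ρ ^ 2) (1 / ρ ^ 2) s := (hasDerivAt_id s).div_const _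
  have h2 := (profile_win.der (s / ρ ^ 2)).comp s h1
  have h3 : deriv (fun s => win (s / ρ ^ 2)) s = deriv win (s / ρ ^ 2) * (1 / ρ ^ 2) := h2.deriv
  rw [h3]; ring

lemma deriv2_win_scaled (ρ s : ℝ) :
    deriv (deriv (fun s => win (s / ρ ^ 2))) s = deriv (deriv win) (s / ρ ^ 2) / ρ ^ 4 := by
  have h0 : deriv (fun s => win (s / ρ ^ 2)) = fun s => deriv win (s / ρ ^ 2) / ρ ^ 2 :=
    funext fun s => deriv_win_scaled ρ s
  rw [h0]
  have h1 : HasDerivAt (fun s : ℝ => s / ρ ^ 2) (1 / ρ ^ 2) s := (hasDerivAt_id s).div_const _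
  have h2 := ((profile_dwin.der (s / ρ ^ 2)).comp s h1).div_const (ρ ^ 2)
  have h3 : deriv (fun s => deriv win (s / ρ ^ 2) / ρ ^ 2) s
      = deriv (deriv win) (s / ρ ^ 2) * (1 / ρ ^ 2) / ρ ^ 2 := h2.deriv
  rw [h3]
  by_cases hρ : ρ = 0
  · subst hρ; simp
  · field_simp

/-- hessian of the window function -/
lemma abs_hess_winF_le {T S : Submodule ℝ E} {c : E} (hc : c ∈ Tᗮ) {ρ : ℝ} (hρ : 0 < ρ) (y : E) :
    |hess (winF T c ρ) S.starProjection y| ≤ 6 * winC / ρ ^ 2 * FV.tilt T S.starProjection := by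
  have hk : ContDiff ℝ 2 (fun s => win (s / ρ ^ 2)) :=
    contDiff_win_two.comp (contDiff_id.div_const _)
  have h1 := hess_vrad hc hk S.starProjection y
  have ht0 : 0 ≤ FV.tilt T S.starProjection := FV.tilt_nonneg S T
  unfold winF
  rw [h1, deriv_win_scaled, deriv2_win_scaled]
  set w := hgt T c y with hw
  have hwm : w ∈ Tᗮ := hgt_mem hc y
  have hW : ⟪w, S.starProjection w⟫ ≤ FV.tilt T S.starProjection * ‖w‖ ^ 2 := by
    rw [inner_star_self]; exact norm_sq_star_le_of_mem hwm
  have hW0 : 0 ≤ ⟪w, S.starProjection w⟫ := by rw [inner_star_self]; positivity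
  have hs0 : 0 ≤ ‖w‖ ^ 2 / ρ ^ 2 := by positivity
  by_cases h : 1 ≤ ‖w‖ ^ 2 / ρ ^ 2
  · rw [profile_win.zero' h, profile_dwin.zero' h]
    simp only [zero_div, mul_zero, zero_mul, add_zero, abs_zero]
    have := winC_nonneg
    positivity
  · rw [not_le, div_lt_one (by positivity)] at h
    have a1 := abs_deriv_win_le hs0
    have a2 := abs_deriv2_win_le hs0
    have hC := winC_nonneg
    calc |2 * (deriv win (‖w‖ ^ 2 / ρ ^ 2) / ρ ^ 2) * FV.tilt T S.starProjection +
          4 * (deriv (deriv win) (‖w‖ ^ 2 / ρ ^ 2) / ρ ^ 4) * ⟪w, S.starProjection w⟫|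
        ≤ |2 * (deriv win (‖w‖ ^ 2 / ρ ^ 2) / ρ ^ 2) * FV.tilt T S.starProjection| +
          |4 * (deriv (deriv win) (‖w‖ ^ 2 / ρ ^ 2) / ρ ^ 4) * ⟪w, S.starProjection w⟫| :=
            abs_add_le _ _
      _ = 2 * (|deriv win (‖w‖ ^ 2 / ρ ^ 2)| / ρ ^ 2) * FV.tilt T S.starProjection +
          4 * (|deriv (deriv win) (‖w‖ ^ 2 / ρ ^ 2)| / ρ ^ 4) * ⟪w, S.starProjection w⟫ := by
            rw [abs_mul, abs_mul, abs_mul, abs_mul, abs_div, abs_div, abs_of_nonneg ht0,
              abs_of_nonneg hW0, abs_of_nonneg (by norm_num : (0:ℝ) ≤ 2),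
              abs_of_nonneg (by norm_num : (0:ℝ) ≤ 4), abs_of_nonneg (by positivity : 0 ≤ ρ ^ 2),
              abs_of_nonneg (by positivity : 0 ≤ ρ ^ 4)]
      _ ≤ 2 * (winC / ρ ^ 2) * FV.tilt T S.starProjection +
          4 * (winC / ρ ^ 4) * (FV.tilt T S.starProjection * ρ ^ 2) := by
            have hh : ⟪w, S.starProjection w⟫ ≤ FV.tilt T S.starProjection * ρ ^ 2 :=
              hW.trans (by gcongr)
            gcongr
      _ = 6 * winC / ρ ^ 2 * FV.tilt T S.starProjection := by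
            field_simp
            ring

/-- the hessian vanishes off the window -/
lemma hess_winF_zero {T : Submodule ℝ E} {c : E} (hc : c ∈ Tᗮ) {ρ : ℝ} (hρ : 0 < ρ) {y : E}
    (hy : ρ ≤ ‖hgt T c y‖) (B : E →L[ℝ] E) : hess (winF T c ρ) B y = 0 := by
  have hk : ContDiff ℝ 2 (fun s => win (s / ρ ^ 2)) :=
    contDiff_win_two.comp (contDiff_id.div_const _)
  unfold winF
  rw [hess_vrad hc hk B y, deriv_win_scaled, deriv2_win_scaled]
  have h : 1 ≤ ‖hgt T c y‖ ^ 2 / ρ ^ 2 := by
    rw [one_le_div (by positivity)]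
    gcongr
  rw [profile_win.zero' h, profile_dwin.zero' h]
  simp

variable [MeasurableSpace E] [BorelSpace E]
variable {m : ℕ} {T : Submodule ℝ E} {G : Set E} {h : ℝ} {ν : Measure E} {P : E → E →L[ℝ] E}
  {z c : E} {k k' K : ℝ → ℝ}

/-- the base ball times the height window -/
def winSet (T : Submodule ℝ E) (z c : E) (ρ t : ℝ) : Set E :=
  {y | bsq T z y < t ^ 2 ∧ ‖hgt T c y‖ < ρ}

lemma isOpen_winSet (T : Submodule ℝ E) (z c : E) (ρ t : ℝ) : IsOpen (winSet T z c ρ t) :=
  (isOpen_lt (continuous_bsq T z) continuous_const).inter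
    (isOpen_lt (contDiff_hgt (n := 0) T c).continuous.norm continuous_const)

/-- the tilt energy in the window -/
noncomputable def winE (T : Submodule ℝ E) (z c : E) (ρ : ℝ) (P : E → E →L[ℝ] E)
    (ν : Measure E) (t : ℝ) : ℝ := ∫ y in winSet T z c ρ t, ODE.tilt T P y ∂ν

lemma tilt_agree (T : Submodule ℝ E) (P : E → E →L[ℝ] E) (y : E) :
    FV.tilt T (P y) = ODE.tilt T P y := by
  rw [FV.tilt_eq]; rfl

lemma integrable_tilt (hC : CylStat m T G h ν P) : Integrable (ODE.tilt T P) ν := by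
  haveI := hC.fin
  refine Integrable.mono' (integrable_const (2 * (Module.finrank ℝ E : ℝ))) (aesm_tilt hC.meas) ?_
  filter_upwards [(CylStat.plane hC).abs_tilt_le (T := T)] with y hy using hy

lemma winE_nonneg (hC : CylStat m T G h ν P) (ρ t : ℝ) : 0 ≤ winE T z c ρ P ν t :=
  integral_nonneg_of_ae (ae_restrict_of_ae (by
    filter_upwards [ODE.CylStat.tilt_nonneg hC] with y hy using hy))

lemma winE_mono (hC : CylStat m T G h ν P) {ρ s t : ℝ} (hs : 0 ≤ s) (hst : s ≤ t) :
    winE T z c ρ P ν s ≤ winE T z c ρ P ν t := by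
  unfold winE
  refine setIntegral_mono_set (integrable_tilt hC).integrableOn
    (ae_restrict_of_ae (by filter_upwards [ODE.CylStat.tilt_nonneg hC] with y hy using hy)) ?_
  refine (HasSubset.Subset.eventuallyLE ?_)
  rintro y ⟨h1, h2⟩
  exact ⟨h1.trans_le (by gcongr), h2⟩

/-- integrals against functions supported in the window are controlled by the window energy -/
lemma abs_integral_le_winE (hC : CylStat m T G h ν P) {ρ t A : ℝ} (hA : 0 ≤ A) {f : E → ℝ}
    (hf : ∀ᵐ y ∂ν, |f y| ≤ A * (winSet T z c ρ t).indicator (ODE.tilt T P) y) :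
    |∫ y, f y ∂ν| ≤ A * winE T z c ρ P ν t := by
  have hi : Integrable ((winSet T z c ρ t).indicator (ODE.tilt T P)) ν :=
    (integrable_tilt hC).indicator (isOpen_winSet T z c ρ t).measurableSet
  calc |∫ y, f y ∂ν| ≤ ∫ y, A * (winSet T z c ρ t).indicator (ODE.tilt T P) y ∂ν := by
        rw [← Real.norm_eq_abs]
        refine norm_integral_le_of_norm_le (hi.const_mul A) ?_
        filter_upwards [hf] with y hy
        rw [Real.norm_eq_abs]; exact hy
    _ = A * winE T z c ρ P ν t := by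
        rw [integral_const_mul, integral_indicator (isOpen_winSet T z c ρ t).measurableSet]
        rfl

/-- **Derivative of the mass fraction of a window.** -/
theorem window_deriv (hC : CylStat m T G h ν P) (hk : Kern k k' K) (hc : c ∈ Tᗮ) {B : ℝ}
    (hB0 : 0 ≤ B) (hB : ∀ s, 0 ≤ s → |k s| ≤ B ∧ |k' s| ≤ B ∧ |K s| ≤ B)
    {ρ t R : ℝ} (hρ : 0 < ρ) (ht : 0 < t) (htR : t < R) (hG : BallIn T G z R) :
    ∃ D, HasDerivAt (hgtK m T z k (winF T c ρ) ν) D t ∧
      |D| ≤ t⁻¹ * (6 * (winC + 1) * B * (1 / ρ ^ 2 + 1 / t ^ 2) *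
        (t ^ (2 - (m : ℤ)) * winE T z c ρ P ν t)) := by
  refine ⟨_, CylStat.height_ode hC hk (contDiff_winF T c ρ) ht htR hG, ?_⟩
  have hC0 := winC_nonneg
  have hE0 := winE_nonneg (z := z) (c := c) hC ρ t
  -- the hessian term
  have h1 : |∫ y, K (bsq T z y / t ^ 2) * hess (winF T c ρ) (P y) y ∂ν|
      ≤ B * (6 * winC / ρ ^ 2) * winE T z c ρ P ν t := by
    refine abs_integral_le_winE hC (by positivity) ?_
    filter_upwards [hC.proj] with y hy
    obtain ⟨S, hS, hP⟩ := hy
    have htl : FV.tilt T S.starProjection = ODE.tilt T P y := by rw [← tilt_agree, hP]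
    have htl0 : 0 ≤ ODE.tilt T P y := by rw [← htl]; exact FV.tilt_nonneg S T
    by_cases hy : y ∈ winSet T z c ρ t
    · rw [Set.indicator_of_mem hy, abs_mul]
      have hb := (hB (bsq T z y / t ^ 2) (div_nonneg (bsq_nonneg T z y) (by positivity))).2.2
      have hh := abs_hess_winF_le (S := S) hc hρ y
      rw [hP]
      rw [htl] at hh
      calc |K (bsq T z y / t ^ 2)| * |hess (winF T c ρ) S.starProjection y|
          ≤ B * (6 * winC / ρ ^ 2 * ODE.tilt T P y) := by gcongr
        _ = _ := by ring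
    · rw [Set.indicator_of_notMem hy, mul_zero]
      have : K (bsq T z y / t ^ 2) * hess (winF T c ρ) (P y) y = 0 := by
        by_cases h3 : bsq T z y < t ^ 2
        · have h4 : ρ ≤ ‖hgt T c y‖ := by
            by_contra hcon
            exact hy ⟨h3, not_le.1 hcon⟩
          rw [hess_winF_zero hc hρ h4, mul_zero]
        · have : K (bsq T z y / t ^ 2) = 0 := by
            refine hk.pK.zero _ ?_
            rw [one_le_div (by positivity)]
            exact not_lt.1 h3
          rw [this, zero_mul]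
      rw [this, abs_zero]
  -- the quartic term
  have h2 : |∫ y, winF T c ρ y * (k (bsq T z y / t ^ 2) * ODE.tilt T P y
      + 2 * k' (bsq T z y / t ^ 2) / t ^ 2 * ODE.rad T P z y) ∂ν|
      ≤ 3 * B * winE T z c ρ P ν t := by
    refine abs_integral_le_winE hC (by positivity) ?_
    filter_upwards [ODE.CylStat.tilt_nonneg hC, CylStat.rad_le_tilt hC z] with y ht0 hr
    by_cases hy : y ∈ winSet T z c ρ t
    · rw [Set.indicator_of_mem hy, abs_mul]
      have hs0 : 0 ≤ bsq T z y / t ^ 2 := div_nonneg (bsq_nonneg T z y) (by positivity)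
      have hb := hB _ hs0
      have h3 : ODE.rad T P z y / t ^ 2 ≤ ODE.tilt T P y := by
        rw [div_le_iff₀ (by positivity)]
        calc ODE.rad T P z y ≤ bsq T z y * ODE.tilt T P y := hr
          _ ≤ t ^ 2 * ODE.tilt T P y := by
              have := hy.1.le
              gcongr
          _ = _ := by ring
      have h4 : 0 ≤ ODE.rad T P z y / t ^ 2 := div_nonneg (rad_nonneg y) (by positivity)
      calc |winF T c ρ y| * |k (bsq T z y / t ^ 2) * ODE.tilt T P y
            + 2 * k' (bsq T z y / t ^ 2) / t ^ 2 * ODE.rad T P z y|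
          ≤ 1 * (|k (bsq T z y / t ^ 2) * ODE.tilt T P y|
            + |2 * k' (bsq T z y / t ^ 2) / t ^ 2 * ODE.rad T P z y|) := by
              gcongr
              · rw [abs_of_nonneg (winF_nonneg T c ρ y)]; exact winF_le_one T c ρ y
              · exact abs_add_le _ _
        _ = |k (bsq T z y / t ^ 2)| * ODE.tilt T P y
            + 2 * |k' (bsq T z y / t ^ 2)| * (ODE.rad T P z y / t ^ 2) := by
              rw [one_mul, abs_mul, abs_of_nonneg ht0]
              congr 1
              rw [show 2 * k' (bsq T z y / t ^ 2) / t ^ 2 * ODE.rad T P z y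
                = 2 * k' (bsq T z y / t ^ 2) * (ODE.rad T P z y / t ^ 2) by ring,
                abs_mul, abs_mul, abs_of_nonneg (by norm_num : (0:ℝ) ≤ 2), abs_of_nonneg h4]
        _ ≤ B * ODE.tilt T P y + 2 * B * ODE.tilt T P y := by
              have hb1 := hb.1
              have hb2 := hb.2.1
              gcongr
        _ = 3 * B * ODE.tilt T P y := by ring
    · rw [Set.indicator_of_notMem hy, mul_zero]
      have : winF T c ρ y * (k (bsq T z y / t ^ 2) * ODE.tilt T P y
          + 2 * k' (bsq T z y / t ^ 2) / t ^ 2 * ODE.rad T P z y) = 0 := by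
        by_cases h3 : bsq T z y < t ^ 2
        · have h4 : ρ ≤ ‖hgt T c y‖ := by
            by_contra hcon
            exact hy ⟨h3, not_le.1 hcon⟩
          rw [winF_zero hρ h4, zero_mul]
        · have h5 : 1 ≤ bsq T z y / t ^ 2 := by
            rw [one_le_div (by positivity)]
            exact not_lt.1 h3
          rw [hk.pk.zero _ h5, hk.pk.zero' h5]
          simp
      rw [this, abs_zero]
  have hz : t ^ (2 - (m : ℤ)) = t ^ 2 * t ^ (-(m : ℤ)) := by
    rw [show (2 - (m : ℤ)) = 2 + (-(m : ℤ)) by ring, zpow_add₀ ht.ne']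
    norm_cast
  have hz0 : 0 < t ^ (-(m : ℤ)) := zpow_pos ht _
  unfold hessK errK
  rw [abs_mul, abs_of_pos (inv_pos.2 ht)]
  refine mul_le_mul_of_nonneg_left ?_ (inv_pos.2 ht).le
  calc |t ^ (2 - (m : ℤ)) * (∫ y, K (bsq T z y / t ^ 2) * hess (winF T c ρ) (P y) y ∂ν)
        - t ^ (-(m : ℤ)) * ∫ y, winF T c ρ y * (k (bsq T z y / t ^ 2) * ODE.tilt T P y
          + 2 * k' (bsq T z y / t ^ 2) / t ^ 2 * ODE.rad T P z y) ∂ν|
      ≤ |t ^ (2 - (m : ℤ)) * (∫ y, K (bsq T z y / t ^ 2) * hess (winF T c ρ) (P y) y ∂ν)|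
        + |t ^ (-(m : ℤ)) * ∫ y, winF T c ρ y * (k (bsq T z y / t ^ 2) * ODE.tilt T P y
          + 2 * k' (bsq T z y / t ^ 2) / t ^ 2 * ODE.rad T P z y) ∂ν| := abs_sub _ _
    _ ≤ t ^ (2 - (m : ℤ)) * (B * (6 * winC / ρ ^ 2) * winE T z c ρ P ν t)
        + t ^ (-(m : ℤ)) * (3 * B * winE T z c ρ P ν t) := by
          rw [abs_mul, abs_mul, abs_of_pos hz0, abs_of_pos (zpow_pos ht _)]
          gcongr
    _ = t ^ (2 - (m : ℤ)) * (B * (6 * winC / ρ ^ 2) * winE T z c ρ P ν t)
        + t ^ (2 - (m : ℤ)) * (3 * B * (1 / t ^ 2) * winE T z c ρ P ν t) := by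
          rw [hz]; field_simp
    _ ≤ t ^ (2 - (m : ℤ)) * (6 * (winC + 1) * B * (1 / ρ ^ 2) * winE T z c ρ P ν t)
        + t ^ (2 - (m : ℤ)) * (6 * (winC + 1) * B * (1 / t ^ 2) * winE T z c ρ P ν t) := by
          have hz2 : 0 < t ^ (2 - (m : ℤ)) := zpow_pos ht _
          have e1 : B * (6 * winC / ρ ^ 2) ≤ 6 * (winC + 1) * B * (1 / ρ ^ 2) := by
            rw [show B * (6 * winC / ρ ^ 2) = 6 * winC * B * (1 / ρ ^ 2) by ring]
            gcongr
            linarith
          have e2 : 3 * B * (1 / t ^ 2) ≤ 6 * (winC + 1) * B * (1 / t ^ 2) := by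
            gcongr
            nlinarith
          gcongr
    _ = _ := by ring

end Vale.Agent.P214.TH
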