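import Vale.Agent.P214.TH.Thin

/-!
# P214, block TH: main statements

* `winE_le_tiltK`   : the window energy at scale `t` is bounded by the tilt energy `tiltK` at `2t`
* `thin_gap_win`    : a point `y₀` of lower density, whose window of half-width `w` carries a small
  mass fraction at scale `t`, forces window energy `≥ c w²/L` at some scale `t' ∈ [w,t]`
* `thin_gap`        : the same with `tiltK` at the scale `2t'`
* `hgtK_win_le_mass`: the mass fraction of the window from the mass of the window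
-/

open Set Filter Topology MeasureTheory Metric
open scoped RealInnerProductSpace

set_option linter.all false

namespace Vale.Agent.P214.TH

open Vale.Agent.P214.FV Vale.Agent.P214.ODE

variable {E : Type*} [NormedAddCommGroup E] [InnerProductSpace ℝ E] [FiniteDimensional ℝ E]
variable [MeasurableSpace E] [BorelSpace E]
variable {m : ℕ} {T : Submodule ℝ E} {G : Set E} {h : ℝ} {ν : Measure E} {P : E → E →L[ℝ] E}
  {z c : E} {k k' K : ℝ → ℝ}

/-- the window energy at scale `t` and the kernel energy at scale `2t` -/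
theorem winE_le_tiltK (hC : CylStat m T G h ν P) (hk : Kern k k' K) {κ ρ t R : ℝ}
    (hκ0 : 0 < κ) (hκ : ∀ s, 0 ≤ s → s ≤ 1 / 4 → κ ≤ K s) (ht : 0 < t) :
    t ^ (2 - (m : ℤ)) * winE T z c ρ P ν t
      ≤ (2 : ℝ) ^ ((m : ℤ) - 2) / κ * tiltK m T z K P ν (2 * t) := by
  haveI := hC.fin
  have hmeas := (isOpen_winSet T z c ρ t).measurableSet
  have hint : Integrable (ODE.tilt T P) ν := integrable_tilt hC
  -- the kernel integral dominates
  have hKb : ∃ B, ∀ s, 0 ≤ s → |K s| ≤ B := by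
    obtain ⟨B, _, hB⟩ := hk.pK.exists_bound
    exact ⟨B, fun s hs => (hB s hs).1⟩
  obtain ⟨B, hB⟩ := hKb
  have hint2 : Integrable (fun y => K (bsq T z y / (2 * t) ^ 2) * ODE.tilt T P y) ν := by
    refine Integrable.mono' (hint.abs.const_mul B) ?_ ?_
    · exact (hk.pK.continuous.comp
        ((continuous_bsq T z).div_const _)).aestronglyMeasurable.mul (aesm_tilt hC.meas)
    · filter_upwards with y
      rw [Real.norm_eq_abs, abs_mul]
      have := hB (bsq T z y / (2 * t) ^ 2) (div_nonneg (bsq_nonneg T z y) (by positivity))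
      gcongr
  have h1 : κ * winE T z c ρ P ν t
      ≤ ∫ y, K (bsq T z y / (2 * t) ^ 2) * ODE.tilt T P y ∂ν := by
    unfold winE
    rw [← integral_indicator hmeas, ← integral_const_mul]
    refine integral_mono_ae ((hint.indicator hmeas).const_mul κ) hint2 ?_
    filter_upwards [ODE.CylStat.tilt_nonneg hC] with y h0
    by_cases hy : y ∈ winSet T z c ρ t
    · simp only [Set.indicator_of_mem hy]
      refine mul_le_mul_of_nonneg_right (hκ _ (div_nonneg (bsq_nonneg T z y) (by positivity)) ?_) h0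
      rw [div_le_iff₀ (by positivity)]
      have := hy.1.le
      nlinarith
    · simp only [Set.indicator_of_notMem hy, mul_zero]
      exact mul_nonneg (hk.K_nonneg _) h0
  unfold tiltK
  have e1 : (2 * t) ^ (2 - (m : ℤ)) = (2 : ℝ) ^ (2 - (m : ℤ)) * t ^ (2 - (m : ℤ)) := mul_zpow _ _ _
  have e2 : (2 : ℝ) ^ ((m : ℤ) - 2) * (2 : ℝ) ^ (2 - (m : ℤ)) = 1 := by
    rw [← zpow_add₀ (by norm_num)]; simp
  have hz0 : 0 < t ^ (2 - (m : ℤ)) := zpow_pos ht _
  rw [e1]
  calc t ^ (2 - (m : ℤ)) * winE T z c ρ P ν t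
      = t ^ (2 - (m : ℤ)) * (κ * winE T z c ρ P ν t) / κ := by field_simp
    _ ≤ t ^ (2 - (m : ℤ)) * (∫ y, K (bsq T z y / (2 * t) ^ 2) * ODE.tilt T P y ∂ν) / κ := by
        gcongr
    _ = ((2 : ℝ) ^ ((m : ℤ) - 2) * (2 : ℝ) ^ (2 - (m : ℤ))) * t ^ (2 - (m : ℤ))
          * (∫ y, K (bsq T z y / (2 * t) ^ 2) * ODE.tilt T P y ∂ν) / κ := by rw [e2, one_mul]
    _ = _ := by ring

/-- the mass fraction of the window is bounded by the mass of the window -/
theorem hgtK_win_le_mass (hC : CylStat m T G h ν P) (hk : Kern k k' K) {B : ℝ} (hB0 : 0 ≤ B)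
    (hB : ∀ s, 0 ≤ s → |k s| ≤ B) {ρ t : ℝ} (hρ : 0 < ρ) (ht : 0 < t) :
    hgtK m T z k (winF T c ρ) ν t ≤ B * ν.real (winSet T z c ρ t) / t ^ m := by
  haveI := hC.fin
  have hmeas := (isOpen_winSet T z c ρ t).measurableSet
  unfold hgtK
  rw [zpow_neg, zpow_natCast, inv_mul_eq_div]
  gcongr
  calc ∫ y, k (bsq T z y / t ^ 2) * winF T c ρ y ∂ν
      ≤ ∫ y, (winSet T z c ρ t).indicator (fun _ => B) y ∂ν := by
        refine integral_mono_of_nonneg ?_ ((integrable_const B).indicator hmeas) ?_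
        · filter_upwards with y
          exact mul_nonneg (hk.nonneg _) (winF_nonneg _ _ _ _)
        · filter_upwards with y
          by_cases hy : y ∈ winSet T z c ρ t
          · simp only [Set.indicator_of_mem hy]
            have h1 := hB (bsq T z y / t ^ 2) (div_nonneg (bsq_nonneg T z y) (by positivity))
            have h2 := winF_le_one T c ρ y
            have h3 := winF_nonneg T c ρ y
            have h4 := hk.nonneg (bsq T z y / t ^ 2)
            calc k (bsq T z y / t ^ 2) * winF T c ρ y ≤ B * 1 := by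
                  gcongr
                  exact (le_abs_self _).trans h1
              _ = B := mul_one _
          · simp only [Set.indicator_of_notMem hy]
            by_cases h3 : bsq T z y < t ^ 2
            · have h4 : ρ ≤ ‖hgt T c y‖ := by
                by_contra hcon
                exact hy ⟨h3, not_le.1 hcon⟩
              rw [winF_zero hρ h4, mul_zero]
            · have h5 : k (bsq T z y / t ^ 2) = 0 := by
                refine hk.pk.zero _ ?_
                rw [one_le_div (by positivity)]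
                exact not_lt.1 h3
              rw [h5, zero_mul]
    _ = B * ν.real (winSet T z c ρ t) := by
        rw [integral_indicator hmeas]
        simp [mul_comm]

/-- the constant of the thin gap lemma -/
noncomputable def gapC (m : ℕ) (κ B a : ℝ) : ℝ := κ * a * (1 / 2) ^ m / (4 * (thC B + 1))

lemma gapC_pos {κ B a : ℝ} (hκ : 0 < κ) (hB : 0 ≤ B) (ha : 0 < a) : 0 < gapC m κ B a := by
  have := thC_nonneg hB
  unfold gapC
  positivity

/-- **Thin gap lemma, window form**: the window of half-width `w` about the height of a point `y₀` of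
lower density `a` cannot have small mass fraction at the scale `t` unless it carries the energy
`c w²/L` at some scale in `[w,t]`, `L ≥ max(1, log(t/w))`. -/
theorem thin_gap_win (hC : CylStat m T G h ν P) (hk : Kern k k' K) {B κ : ℝ} (hB0 : 0 ≤ B)
    (hB : ∀ s, 0 ≤ s → |k s| ≤ B ∧ |k' s| ≤ B ∧ |K s| ≤ B)
    (hκ0 : 0 < κ) (hκ : ∀ s, 0 ≤ s → s ≤ 1 / 4 → κ ≤ k s) {y₀ : E} {a w t R L : ℝ} (ha : 0 < a)
    (hw : 0 < w) (hwt : w ≤ t) (htR : t < R) (hG : BallIn T G y₀ R)
    (hdens : a * (w / 2) ^ m ≤ ν.real (ball y₀ (w / 2)))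
    (hfrac : hgtK m T y₀ k (winF T (co T y₀) w) ν t ≤ κ * a * (1 / 2) ^ m / 2)
    (hL1 : 1 ≤ L) (hL : Real.log (t / w) ≤ L) :
    ∃ t' ∈ Icc w t, gapC m κ B a * w ^ 2 / (2 * L)
      < t' ^ (2 - (m : ℤ)) * winE T y₀ (co T y₀) w P ν t' := by
  have hcmem : co T y₀ ∈ Tᗮ := by
    have := Tᗮ.starProjection_apply_mem y₀
    simpa [co] using this
  have hth := thC_nonneg hB0
  have hlow := window_lower (t := w) (ρ := w) hC hk hw hw (hwt.trans_lt htR) hG hκ0.le hκ
    (a := a) (by simpa using hdens)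
  have hlow' : κ * a * (1 / 2) ^ m ≤ hgtK m T y₀ k (winF T (co T y₀) w) ν w := by
    refine le_trans (le_of_eq ?_) hlow
    rw [min_self, div_pow, div_pow]
    field_simp
    ring
  refine window_energy hC hk hcmem hB0 hB hw hw hwt htR hG (a := κ * a * (1 / 2) ^ m)
    (b := κ * a * (1 / 2) ^ m / 2) (σ := gapC m κ B a * w ^ 2 / (2 * L)) ?_ hlow' hfrac ?_
  · have := gapC_pos (m := m) hκ0 hB0 ha
    positivity
  · have hg := gapC_pos (m := m) hκ0 hB0 ha
    have hlog0 : 0 ≤ Real.log (t / w) := Real.log_nonneg (by rw [one_le_div hw]; exact hwt)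
    calc thC B * (1 / w ^ 2 + 1 / w ^ 2) * (gapC m κ B a * w ^ 2 / (2 * L)) * Real.log (t / w)
        = thC B * gapC m κ B a * (Real.log (t / w) / L) := by field_simp; ring
      _ ≤ thC B * gapC m κ B a * 1 := by
          gcongr
          rw [div_le_one (by linarith)]
          exact hL
      _ < κ * a * (1 / 2) ^ m - κ * a * (1 / 2) ^ m / 2 := by
          unfold gapC
          rw [mul_one]
          have h1 : 0 < κ * a * (1 / 2) ^ m := by positivity
          have h2 : thC B * (κ * a * (1 / 2) ^ m / (4 * (thC B + 1)))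
              ≤ κ * a * (1 / 2) ^ m / 4 := by
            rw [mul_div_assoc', div_le_div_iff₀ (by positivity) (by norm_num)]
            nlinarith
          linarith

/-- **Thin gap lemma**: with the full kernel energy. -/
theorem thin_gap (hC : CylStat m T G h ν P) (hk : Kern k k' K) {B κ κ₁ : ℝ} (hB0 : 0 ≤ B)
    (hB : ∀ s, 0 ≤ s → |k s| ≤ B ∧ |k' s| ≤ B ∧ |K s| ≤ B)
    (hκ0 : 0 < κ) (hκ : ∀ s, 0 ≤ s → s ≤ 1 / 4 → κ ≤ k s)
    (hκ₁0 : 0 < κ₁) (hκ₁ : ∀ s, 0 ≤ s → s ≤ 1 / 4 → κ₁ ≤ K s)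
    {y₀ : E} {a w t R L : ℝ} (ha : 0 < a)
    (hw : 0 < w) (hwt : w ≤ t) (htR : t < R) (hG : BallIn T G y₀ R)
    (hdens : a * (w / 2) ^ m ≤ ν.real (ball y₀ (w / 2)))
    (hfrac : hgtK m T y₀ k (winF T (co T y₀) w) ν t ≤ κ * a * (1 / 2) ^ m / 2)
    (hL1 : 1 ≤ L) (hL : Real.log (t / w) ≤ L) :
    ∃ t' ∈ Icc w t, κ₁ * (2 : ℝ) ^ (2 - (m : ℤ)) * gapC m κ B a * w ^ 2 / (2 * L)
      < tiltK m T y₀ K P ν (2 * t') := by
  obtain ⟨t', ht', h1⟩ := thin_gap_win hC hk hB0 hB hκ0 hκ ha hw hwt htR hG hdens hfrac hL1 hL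
  refine ⟨t', ht', ?_⟩
  have h2 := winE_le_tiltK (z := y₀) (c := co T y₀) (ρ := w) (R := R) hC hk hκ₁0 hκ₁
    (hw.trans_le ht'.1)
  have h3 := h1.trans_le h2
  have e2 : (2 : ℝ) ^ (2 - (m : ℤ)) * (2 : ℝ) ^ ((m : ℤ) - 2) = 1 := by
    rw [← zpow_add₀ (by norm_num)]; simp
  have hpos : 0 < κ₁ * (2 : ℝ) ^ (2 - (m : ℤ)) := by positivity
  calc κ₁ * (2 : ℝ) ^ (2 - (m : ℤ)) * gapC m κ B a * w ^ 2 / (2 * L)
      = κ₁ * (2 : ℝ) ^ (2 - (m : ℤ)) * (gapC m κ B a * w ^ 2 / (2 * L)) := by ring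
    _ < κ₁ * (2 : ℝ) ^ (2 - (m : ℤ))
          * ((2 : ℝ) ^ ((m : ℤ) - 2) / κ₁ * tiltK m T y₀ K P ν (2 * t')) := by gcongr
    _ = ((2 : ℝ) ^ (2 - (m : ℤ)) * (2 : ℝ) ^ ((m : ℤ) - 2)) * tiltK m T y₀ K P ν (2 * t') := by
        field_simp
    _ = _ := by rw [e2, one_mul]

end Vale.Agent.P214.TH
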