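import Vale.Agent.P214.TH.Bump

/-!
# P214, block TH: the thin gap lemma

If a height window of half-width `ρ` carries the mass fraction `≥ a` at scale `t₁` and `≤ b` at scale
`t₂`, then at some scale `t ∈ [t₁,t₂]` the normalised window energy is
`≥ (a - b) / (C (1/ρ²+1/t₁²) log (t₂/t₁))`.
-/

open Set Filter Topology MeasureTheory Metric
open scoped RealInnerProductSpace

set_option linter.all false

namespace Vale.Agent.P214.TH

open Vale.Agent.P214.FV Vale.Agent.P214.ODE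

variable {E : Type*} [NormedAddCommGroup E] [InnerProductSpace ℝ E] [FiniteDimensional ℝ E]
variable [MeasurableSpace E] [BorelSpace E]
variable {m : ℕ} {T : Submodule ℝ E} {G : Set E} {h : ℝ} {ν : Measure E} {P : E → E →L[ℝ] E}
  {z c : E} {k k' K : ℝ → ℝ}

/-- a function with `|t Y'(t)| ≤ L` on `[t₁,t₂]` varies by at most `L log (t₂/t₁)` -/
lemma log_lipschitz {Y : ℝ → ℝ} {L t₁ t₂ : ℝ} (ht₁ : 0 < t₁) (h12 : t₁ ≤ t₂)
    (hY : ∀ t ∈ Icc t₁ t₂, ∃ D, HasDerivAt Y D t ∧ |D| ≤ t⁻¹ * L) :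
    |Y t₂ - Y t₁| ≤ L * Real.log (t₂ / t₁) := by
  have ht₂ : 0 < t₂ := ht₁.trans_le h12
  set f : ℝ → ℝ := fun s => Y (Real.exp s) with hf
  have hmem : ∀ s ∈ Icc (Real.log t₁) (Real.log t₂), Real.exp s ∈ Icc t₁ t₂ := by
    intro s hs
    constructor
    · calc t₁ = Real.exp (Real.log t₁) := (Real.exp_log ht₁).symm
        _ ≤ Real.exp s := Real.exp_le_exp.2 hs.1
    · calc Real.exp s ≤ Real.exp (Real.log t₂) := Real.exp_le_exp.2 hs.2
        _ = t₂ := Real.exp_log ht₂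
  have hder : ∀ s ∈ Icc (Real.log t₁) (Real.log t₂), ∃ D, HasDerivAt f D s ∧ |D| ≤ L := by
    intro s hs
    obtain ⟨D, hD, hDb⟩ := hY _ (hmem s hs)
    refine ⟨D * Real.exp s, hD.comp s (Real.hasDerivAt_exp s), ?_⟩
    have he : 0 < Real.exp s := Real.exp_pos s
    rw [abs_mul, abs_of_pos he]
    calc |D| * Real.exp s ≤ (Real.exp s)⁻¹ * L * Real.exp s := by gcongr
      _ = L := by field_simp
  have hlog : Real.log t₁ ≤ Real.log t₂ := Real.log_le_log ht₁ h12
  have key := (convex_Icc (Real.log t₁) (Real.log t₂)).norm_image_sub_le_of_norm_hasDerivWithin_le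
    (f := f) (f' := fun s => deriv f s) (C := L)
    (fun s hs => by
      obtain ⟨D, hD, -⟩ := hder s hs
      rw [hD.deriv]; exact hD.hasDerivWithinAt)
    (fun s hs => by
      obtain ⟨D, hD, hDb⟩ := hder s hs
      rw [hD.deriv, Real.norm_eq_abs]; exact hDb)
    (left_mem_Icc.2 hlog) (right_mem_Icc.2 hlog)
  simp only [hf, Real.exp_log ht₁, Real.exp_log ht₂, Real.norm_eq_abs] at key
  rw [abs_of_nonneg (sub_nonneg.2 hlog), ← Real.log_div ht₂.ne' ht₁.ne'] at key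
  exact key

/-- the constant of the block -/
noncomputable def thC (B : ℝ) : ℝ := 6 * (winC + 1) * B

lemma thC_nonneg {B : ℝ} (hB : 0 ≤ B) : 0 ≤ thC B := by
  have := winC_nonneg
  unfold thC
  positivity

/-- **Change of the mass fraction of a window.** -/
theorem window_change (hC : CylStat m T G h ν P) (hk : Kern k k' K) (hc : c ∈ Tᗮ) {B : ℝ}
    (hB0 : 0 ≤ B) (hB : ∀ s, 0 ≤ s → |k s| ≤ B ∧ |k' s| ≤ B ∧ |K s| ≤ B)
    {ρ t₁ t₂ R σ : ℝ} (hρ : 0 < ρ) (ht₁ : 0 < t₁) (h12 : t₁ ≤ t₂) (htR : t₂ < R)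
    (hG : BallIn T G z R) (hσ : 0 ≤ σ)
    (hE : ∀ t ∈ Icc t₁ t₂, t ^ (2 - (m : ℤ)) * winE T z c ρ P ν t ≤ σ) :
    |hgtK m T z k (winF T c ρ) ν t₂ - hgtK m T z k (winF T c ρ) ν t₁|
      ≤ thC B * (1 / ρ ^ 2 + 1 / t₁ ^ 2) * σ * Real.log (t₂ / t₁) := by
  refine log_lipschitz ht₁ h12 fun t ht => ?_
  have ht0 : 0 < t := ht₁.trans_le ht.1
  obtain ⟨D, hD, hDb⟩ := window_deriv hC hk hc hB0 hB hρ ht0 (ht.2.trans_lt htR) hG
  refine ⟨D, hD, hDb.trans ?_⟩
  have hC0 := thC_nonneg hB0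
  have h1 : 1 / t ^ 2 ≤ 1 / t₁ ^ 2 := by
    have := ht.1
    gcongr
  have h2 := hE t ht
  have h3 : 0 ≤ t ^ (2 - (m : ℤ)) * winE T z c ρ P ν t :=
    mul_nonneg (zpow_nonneg ht0.le _) (winE_nonneg hC ρ t)
  have h4 : 0 ≤ t⁻¹ := (inv_pos.2 ht0).le
  refine mul_le_mul_of_nonneg_left ?_ h4
  change thC B * (1 / ρ ^ 2 + 1 / t ^ 2) * (t ^ (2 - (m : ℤ)) * winE T z c ρ P ν t)
    ≤ thC B * (1 / ρ ^ 2 + 1 / t₁ ^ 2) * σ
  gcongr

/-- **Thin gap lemma**: a drop of the mass fraction of the window forces energy in the window at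
some intermediate scale. -/
theorem window_energy (hC : CylStat m T G h ν P) (hk : Kern k k' K) (hc : c ∈ Tᗮ) {B : ℝ}
    (hB0 : 0 ≤ B) (hB : ∀ s, 0 ≤ s → |k s| ≤ B ∧ |k' s| ≤ B ∧ |K s| ≤ B)
    {ρ t₁ t₂ R a b σ : ℝ} (hρ : 0 < ρ) (ht₁ : 0 < t₁) (h12 : t₁ ≤ t₂) (htR : t₂ < R)
    (hG : BallIn T G z R) (hσ : 0 ≤ σ)
    (ha : a ≤ hgtK m T z k (winF T c ρ) ν t₁) (hb : hgtK m T z k (winF T c ρ) ν t₂ ≤ b)
    (hab : thC B * (1 / ρ ^ 2 + 1 / t₁ ^ 2) * σ * Real.log (t₂ / t₁) < a - b) :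
    ∃ t ∈ Icc t₁ t₂, σ < t ^ (2 - (m : ℤ)) * winE T z c ρ P ν t := by
  by_contra hcon
  push Not at hcon
  have h1 := window_change hC hk hc hB0 hB hρ ht₁ h12 htR hG hσ hcon
  have h2 := (abs_le.1 h1).1
  linarith

/-- lower bound of the mass fraction of a window from the lower density at a point of height `c` -/
theorem window_lower (hC : CylStat m T G h ν P) (hk : Kern k k' K) {y₀ : E}
    {κ a ρ t R : ℝ} (hρ : 0 < ρ) (ht : 0 < t) (htR : t < R) (hG : BallIn T G y₀ R)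
    (hκ0 : 0 ≤ κ) (hκ : ∀ s, 0 ≤ s → s ≤ 1 / 4 → κ ≤ k s)
    (hdens : a * (min t ρ / 2) ^ m ≤ ν.real (ball y₀ (min t ρ / 2))) :
    κ * (a * (min t ρ / 2) ^ m) / t ^ m ≤ hgtK m T y₀ k (winF T (co T y₀) ρ) ν t := by
  haveI := hC.fin
  set s := min t ρ / 2 with hs
  have hs0 : 0 < s := by positivity
  have hst : s ≤ t / 2 := by rw [hs]; gcongr; exact min_le_left _ _
  have hsρ : s ≤ ρ / 2 := by rw [hs]; gcongr; exact min_le_right _ _
  have h1 : κ * ν.real (ball y₀ s)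
      ≤ ∫ y, k (bsq T y₀ y / t ^ 2) * winF T (co T y₀) ρ y ∂ν := by
    have h2 : ∫ y, (ball y₀ s).indicator (fun _ => κ) y ∂ν = κ * ν.real (ball y₀ s) := by
      rw [integral_indicator measurableSet_ball]
      simp [mul_comm]
    rw [← h2]
    obtain ⟨C, hCb⟩ := CylStat.ball_bound hC (contDiff_winF T (co T y₀) ρ).continuous
      (ht.trans htR) hG
    refine integral_mono ((integrable_const κ).indicator measurableSet_ball)
      (integrable_kernel hk.pk.continuous hk.pk.zero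
        (continuous_bsq T y₀).aestronglyMeasurable (bsq_nonneg T y₀)
        (contDiff_winF T (co T y₀) ρ).continuous.aestronglyMeasurable hCb ht htR.le) ?_
    intro y
    by_cases hy : y ∈ ball y₀ s
    · simp only [Set.indicator_of_mem hy]
      have hd : ‖y - y₀‖ < s := by rwa [mem_ball, dist_eq_norm] at hy
      have h3 : winF T (co T y₀) ρ y = 1 := by
        refine winF_one hρ ?_
        have : hgt T (co T y₀) y = co T (y - y₀) := by unfold hgt; rw [map_sub]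
        rw [this]
        exact (norm_co_le T _).trans (hd.le.trans hsρ)
      have h4 : bsq T y₀ y / t ^ 2 ≤ 1 / 4 := by
        rw [div_le_iff₀ (by positivity)]
        unfold bsq bx
        calc ‖T.starProjection (y - y₀)‖ ^ 2 ≤ (t / 2) ^ 2 := by
              gcongr
              exact (norm_star_le T _).trans (hd.le.trans hst)
          _ = 1 / 4 * t ^ 2 := by ring
      rw [h3, mul_one]
      exact hκ _ (div_nonneg (bsq_nonneg T y₀ y) (by positivity)) h4
    · simp only [Set.indicator_of_notMem hy]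
      exact mul_nonneg (hk.nonneg _) (winF_nonneg _ _ _ _)
  unfold hgtK
  rw [zpow_neg, zpow_natCast, inv_mul_eq_div]
  gcongr
  calc κ * (a * s ^ m) ≤ κ * ν.real (ball y₀ s) := by gcongr
    _ ≤ _ := h1

/-- upper bound of the mass fraction of a window from a height function `F ≥ μ` in the window -/
theorem window_upper (hC : CylStat m T G h ν P) (hk : Kern k k' K) {F : E → ℝ}
    (hF : Continuous F) (hF0 : ∀ᵐ y ∂ν, 0 ≤ F y) {μ ρ t R : ℝ} (hμ : 0 < μ) (hρ : 0 < ρ)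
    (ht : 0 < t) (htR : t < R) (hG : BallIn T G z R)
    (hFμ : ∀ᵐ y ∂ν, bsq T z y < t ^ 2 → ‖hgt T c y‖ < ρ → μ ≤ F y) :
    hgtK m T z k (winF T c ρ) ν t ≤ hgtK m T z k F ν t / μ := by
  haveI := hC.fin
  unfold hgtK
  rw [mul_div_assoc]
  refine mul_le_mul_of_nonneg_left ?_ (zpow_nonneg ht.le _)
  rw [le_div_iff₀ hμ, ← integral_mul_const]
  obtain ⟨C, hCb⟩ := CylStat.ball_bound hC (contDiff_winF T c ρ).continuous (ht.trans htR) hG
  obtain ⟨C', hCb'⟩ := CylStat.ball_bound hC hF (ht.trans htR) hG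
  refine integral_mono_ae
    ((integrable_kernel hk.pk.continuous hk.pk.zero
        (continuous_bsq T z).aestronglyMeasurable (bsq_nonneg T z)
        (contDiff_winF T c ρ).continuous.aestronglyMeasurable hCb ht htR.le).mul_const μ)
    (integrable_kernel hk.pk.continuous hk.pk.zero
        (continuous_bsq T z).aestronglyMeasurable (bsq_nonneg T z)
        hF.aestronglyMeasurable hCb' ht htR.le) ?_
  filter_upwards [hF0, hFμ] with y h0 h1
  have hk0 := hk.nonneg (bsq T z y / t ^ 2)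
  by_cases h2 : bsq T z y < t ^ 2
  · by_cases h3 : ‖hgt T c y‖ < ρ
    · have h4 := h1 h2 h3
      calc k (bsq T z y / t ^ 2) * winF T c ρ y * μ ≤ k (bsq T z y / t ^ 2) * 1 * F y := by
            have := winF_le_one T c ρ y
            have := winF_nonneg T c ρ y
            gcongr
        _ = _ := by ring
    · rw [winF_zero hρ (not_lt.1 h3)]
      simp only [mul_zero, zero_mul]
      positivity
  · have h3 : k (bsq T z y / t ^ 2) = 0 := by
      refine hk.pk.zero _ ?_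
      rw [one_le_div (by positivity)]
      exact not_lt.1 h2
    rw [h3]; simp

end Vale.Agent.P214.TH
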